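import Crest.Agent.R35.Roots

set_option autoImplicit false
set_option maxRecDepth 100000

namespace Crest.Agent.R35

open Crest.CombinatoricsR.PolyominoGame

theorem MW_map (e : Cell ≃ Cell) (he : ∀ X : Set Cell, ContainsCopy X → ContainsCopy (e '' X)) :
    ∀ (d : ℕ) (M B : Finset Cell), MW d M B → MW d (M.map e.toEmbedding) (B.map e.toEmbedding)
  | 0, M, B, h => by
      show ContainsCopy _
      rw [Finset.coe_map]
      exact he _ h
  | d + 1, M, B, h => by
      obtain ⟨m, hm, hm', h⟩ := h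
      refine ⟨e m, by simpa using hm, by simpa using hm', fun b hb hb' => ?_⟩
      have h1 : e.symm b ∉ insert m M := by
        intro hc
        apply hb
        rcases Finset.mem_insert.1 hc with hc | hc
        · rw [← hc]; simp
        · exact Finset.mem_insert_of_mem (by simpa using hc)
      have h2 : e.symm b ∉ B := by simpa using hb'
      have := MW_map e he d _ _ (h _ h1 h2)
      simpa [Finset.map_insert] using this

def flipX : Cell ≃ Cell where
  toFun p := (20 - p.1, p.2)
  invFun p := (20 - p.1, p.2)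
  left_inv p := by simp
  right_inv p := by simp

theorem flipX_copy (X : Set Cell) (h : ContainsCopy X) : ContainsCopy (flipX '' X) := by
  obtain ⟨t, e1, e2, h1, h2, h3⟩ := h
  refine ⟨(20 - t.1, t.2), -e1, e2, by omega, h2, ?_⟩
  rcases h3 with h3 | h3
  · exact Or.inl fun p hp => ⟨_, h3 p hp, by simp [flipX]; ring⟩
  · exact Or.inr fun p hp => ⟨_, h3 p hp, by simp [flipX]; ring⟩

theorem swap_copy (X : Set Cell) (h : ContainsCopy X) :
    ContainsCopy ((Equiv.prodComm ℤ ℤ) '' X) := by
  obtain ⟨t, e1, e2, h1, h2, h3⟩ := h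
  refine ⟨(t.2, t.1), e2, e1, h2, h1, ?_⟩
  rcases h3 with h3 | h3
  · exact Or.inr fun p hp => ⟨_, h3 p hp, by simp⟩
  · exact Or.inl fun p hp => ⟨_, h3 p hp, by simp⟩

/-- Maker owns the centre, Breaker answered `(x, y)`: Maker wins with 20 more claims. -/
def P (x y : ℤ) : Prop := MW 20 {((10 : ℤ), (10 : ℤ))} {(x, y)}

theorem P_flip {x y : ℤ} (h : P (20 - x) y) : P x y := by
  have := MW_map flipX flipX_copy _ _ _ h
  simpa [flipX, P] using this

theorem P_swap {x y : ℤ} (h : P y x) : P x y := by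
  have := MW_map (Equiv.prodComm ℤ ℤ) swap_copy _ _ _ h
  simpa [P] using this

theorem P_flip' {x y : ℤ} (h : P x (20 - y)) : P x y := P_swap (P_flip (P_swap h))

theorem P_of_win {R d : ℕ} (h : Win (2 ^ 220) R d) (hd : d ≤ 20) (x y : ℤ)
    (hR : ∀ i, R.testBit i = true → cell i ≠ (x, y)) : P x y := by
  refine MW_mono hd (h _ _ (fun i hi => ?_) (fun i hi => by simpa using hR i hi))
  rw [Nat.testBit_two_pow] at hi
  have : i = 220 := by simpa [eq_comm] using hi
  subst this
  simp [cell]

def rootList : List ℕ := [0xdc0007f800ffe007ff00fffe1ffff1ffff87fffc3fffc1ffff0fcff03fffc7fff83fffe0ffff07ffe03ffe00fff001ff0007c0003c00, 0x15c000ff001ffe007ff007bf803efc03ffe00fff00fff807ff801ff8006f80015000000000000000000, 0x280001c0003e000ff8007fe0077f001ef800ffc007fe003ff001ff0007f8000a00000000000000000000000, 0x280001e0003fc000fc007ff001ef007ffc01ffc01fff001fe0001e0000000000000000000000000000, 0x204001fe003ff000ffe007ff003ff8002fc00fff007ff003ff801ff8007f8003fc0000000000000000000000, 0xa0000fc001ff000ffc007fe000ff001ef801ffc007fe007fe0003f000160000000000000000000000000000]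

theorem root_win : ∀ R ∈ rootList, ∃ d ≤ 20, Win (2 ^ 220) R d := by
  obtain ⟨h5, h4, h3, h2, h1, h0, -⟩ := roots
  have e : (2 : ℕ) ^ 220 = 0x10000000000000000000000000000000000000000000000000000000 := by
    norm_num
  rw [e]
  simp only [rootList, List.forall_mem_cons]
  exact ⟨⟨_, by norm_num, h0⟩, ⟨_, by norm_num, h1⟩, ⟨_, by norm_num, h2⟩, ⟨_, by norm_num, h3⟩, ⟨_, by norm_num, h4⟩, ⟨_, by norm_num, h5⟩, by simp⟩

def free (x y : ℕ) : Bool := rootList.any fun R => !R.testBit (y * 21 + x)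

theorem P_of_free {x y : ℕ} (hx : x < 21) (h : free x y = true) : P x y := by
  simp only [free, List.any_eq_true, Bool.not_eq_true'] at h
  obtain ⟨R, hR, hb⟩ := h
  obtain ⟨d, hd, hw⟩ := root_win R hR
  refine P_of_win hw hd _ _ fun i hi hc => ?_
  simp only [cell, Prod.mk.injEq, Nat.cast_inj] at hc
  have : i = y * 21 + x := by omega
  rw [this, hb] at hi
  exact absurd hi (by simp)

theorem cover : ∀ x < 21, ∀ y < 21, (x = 10 ∧ y = 10) ∨
    free x y = true ∨ free (20 - x) y = true ∨ free x (20 - y) = true ∨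
    free (20 - x) (20 - y) = true ∨ free y x = true ∨ free (20 - y) x = true ∨
    free y (20 - x) = true ∨ free (20 - y) (20 - x) = true := by
  decide +kernel

theorem P_neg (x y : ℤ) (hx : x < 0) : P x y := by
  obtain ⟨d, hd, hw⟩ := root_win _ (List.mem_cons_self)
  refine P_of_win hw hd _ _ fun i _ hc => ?_
  simp only [cell, Prod.mk.injEq] at hc
  omega

theorem P_all (x y : ℤ) (h : (x, y) ≠ (10, 10)) : P x y := by
  by_cases h1 : x < 0
  · exact P_neg x y h1
  by_cases h2 : 20 < x
  · exact P_flip (P_neg _ _ (by omega))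
  by_cases h3 : y < 0
  · exact P_swap (P_neg _ _ h3)
  by_cases h4 : 20 < y
  · exact P_flip' (P_swap (P_neg _ _ (by omega)))
  obtain ⟨a, rfl⟩ : ∃ a : ℕ, x = a := ⟨x.toNat, by omega⟩
  obtain ⟨b, rfl⟩ : ∃ b : ℕ, y = b := ⟨y.toNat, by omega⟩
  have ha : a < 21 := by omega
  have hb : b < 21 := by omega
  have ea : ((20 - a : ℕ) : ℤ) = 20 - a := by omega
  have eb : ((20 - b : ℕ) : ℤ) = 20 - b := by omega
  rcases cover a ha b hb with ⟨rfl, rfl⟩ | h | h | h | h | h | h | h | h
  · exact absurd rfl h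
  · exact P_of_free ha h
  · have := P_of_free (by omega) h; rw [ea] at this; exact P_flip this
  · have := P_of_free ha h; rw [eb] at this; exact P_flip' this
  · have := P_of_free (by omega) h; rw [ea, eb] at this; exact P_flip (P_flip' this)
  · exact P_swap (P_of_free hb h)
  · have := P_of_free (by omega) h; rw [eb] at this; exact P_swap (P_flip this)
  · have := P_of_free hb h; rw [ea] at this; exact P_swap (P_flip' this)
  · have := P_of_free (by omega) h; rw [ea, eb] at this; exact P_swap (P_flip (P_flip' this))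

theorem MW_start : MW 21 ∅ ∅ := by
  refine ⟨(10, 10), by simp, by simp, fun b hb _ => ?_⟩
  have := P_all b.1 b.2 (by simpa using hb)
  simpa [P] using this

/-! Turning winning positions into a policy. -/

open Classical in
noncomputable def mv (s : ℕ × Finset Cell × Finset Cell) : Cell :=
  if h : ∃ m, m ∉ s.2.1 ∧ m ∉ s.2.2 ∧
      ∀ b, b ∉ insert m s.2.1 → b ∉ s.2.2 → MW (s.1 - 1) (insert m s.2.1) (insert b s.2.2)
  then h.choose else (0, 0)

noncomputable def nxt (s : ℕ × Finset Cell × Finset Cell) (b : Cell) :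
    ℕ × Finset Cell × Finset Cell :=
  (s.1 - 1, insert (mv s) s.2.1, insert b s.2.2)

noncomputable def st (l : List Cell) : ℕ × Finset Cell × Finset Cell :=
  l.foldl nxt (21, ∅, ∅)

noncomputable def policy (l : List Cell) : Cell := mv (st l)

theorem mv_spec (s : ℕ × Finset Cell × Finset Cell) (h1 : 1 ≤ s.1) (h : MW s.1 s.2.1 s.2.2) :
    mv s ∉ s.2.1 ∧ mv s ∉ s.2.2 ∧
      ∀ b, b ∉ insert (mv s) s.2.1 → b ∉ s.2.2 →
        MW (s.1 - 1) (insert (mv s) s.2.1) (insert b s.2.2) := by
  obtain ⟨d, M, B⟩ := s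
  obtain ⟨d, rfl⟩ : ∃ e, d = e + 1 := ⟨d - 1, by simp at h1; omega⟩
  have h' : ∃ m, m ∉ M ∧ m ∉ B ∧
      ∀ b, b ∉ insert m M → b ∉ B → MW (d + 1 - 1) (insert m M) (insert b B) := h
  have e : mv (d + 1, M, B) = h'.choose := dif_pos h'
  rw [e]
  exact h'.choose_spec

theorem st_succ (b : ℕ → Cell) (k : ℕ) :
    st ((List.range (k + 1)).map b) = nxt (st ((List.range k).map b)) (b k) := by
  simp [st, List.range_succ, List.foldl_append]

theorem st_spec (b : ℕ → Cell)
    (hb : ∀ k : ℕ, k < 20 → (∀ j : ℕ, j ≤ k → b k ≠ makerClaim policy b j) ∧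
      (∀ j : ℕ, j < k → b k ≠ b j)) :
    ∀ k ≤ 20, (st ((List.range k).map b)).1 = 21 - k ∧
      (∀ c, c ∈ (st ((List.range k).map b)).2.1 ↔ ∃ j < k, c = makerClaim policy b j) ∧
      (∀ c, c ∈ (st ((List.range k).map b)).2.2 ↔ ∃ j < k, c = b j) ∧
      MW (21 - k) (st ((List.range k).map b)).2.1 (st ((List.range k).map b)).2.2 := by
  intro k
  induction k with
  | zero => intro _; exact ⟨rfl, by simp [st], by simp [st], MW_start⟩
  | succ k ih =>
    intro hk
    obtain ⟨h1, h2, h3, h4⟩ := ih (by omega)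
    have hm : makerClaim policy b k = mv (st ((List.range k).map b)) := rfl
    obtain ⟨-, -, h5⟩ := mv_spec (st ((List.range k).map b)) (by omega) (h1 ▸ h4)
    rw [st_succ]
    refine ⟨by simp only [nxt]; omega, fun c => ?_, fun c => ?_, ?_⟩
    · simp only [nxt, Finset.mem_insert, h2, ← hm]
      constructor
      · rintro (h | ⟨j, hj, h⟩)
        exacts [⟨k, by omega, h⟩, ⟨j, by omega, h⟩]
      · rintro ⟨j, hj, h⟩
        rcases Nat.lt_succ_iff_lt_or_eq.1 hj with hj | rfl
        exacts [Or.inr ⟨j, hj, h⟩, Or.inl h]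
    · simp only [nxt, Finset.mem_insert, h3]
      constructor
      · rintro (h | ⟨j, hj, h⟩)
        exacts [⟨k, by omega, h⟩, ⟨j, by omega, h⟩]
      · rintro ⟨j, hj, h⟩
        rcases Nat.lt_succ_iff_lt_or_eq.1 hj with hj | rfl
        exacts [Or.inr ⟨j, hj, h⟩, Or.inl h]
    · have := h5 (b k) (by
        simp only [Finset.mem_insert, h2, ← hm, not_or, not_exists, not_and]
        exact ⟨(hb k (by omega)).1 k le_rfl, fun j hj => (hb k (by omega)).1 j hj.le⟩) (by
        simp only [h3, not_exists, not_and]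
        exact fun j hj => (hb k (by omega)).2 j hj)
      rw [h1] at this
      have e : 21 - k - 1 = 21 - (k + 1) := by omega
      rw [e] at this
      exact this

end Crest.Agent.R35
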