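import Mathlib
import Crest.Prelude.Def_PolyominoGame

/-! Maker-Breaker game for Snaky: winning positions, templates and a certificate machine. -/

set_option autoImplicit false

namespace Crest.Agent.R35

open Crest.CombinatoricsR.PolyominoGame

abbrev Cell := ℤ × ℤ

/-- `MW d M B`: Maker (to move, owning `M`, Breaker owning `B`) owns a copy after `d` more claims. -/
def MW : ℕ → Finset Cell → Finset Cell → Prop
  | 0, M, _ => ContainsCopy (↑M : Set Cell)
  | d + 1, M, B => ∃ m, m ∉ M ∧ m ∉ B ∧
      ∀ b, b ∉ insert m M → b ∉ B → MW d (insert m M) (insert b B)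

theorem containsCopy_mono {X Y : Set Cell} (h : X ⊆ Y) (hX : ContainsCopy X) :
    ContainsCopy Y := by
  obtain ⟨t, e1, e2, h1, h2, h3⟩ := hX
  refine ⟨t, e1, e2, h1, h2, ?_⟩
  rcases h3 with h3 | h3
  · exact Or.inl fun p hp => h (h3 p hp)
  · exact Or.inr fun p hp => h (h3 p hp)

theorem exists_fresh (M B : Finset Cell) : ∃ m, m ∉ M ∧ m ∉ B := by
  obtain ⟨m, hm⟩ := Infinite.exists_notMem_finset (M ∪ B)
  exact ⟨m, fun h => hm (Finset.mem_union_left _ h), fun h => hm (Finset.mem_union_right _ h)⟩

theorem MW_succ : ∀ (d : ℕ) (M B : Finset Cell), MW d M B → MW (d + 1) M B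
  | 0, M, B, h => by
      obtain ⟨m, hm, hm'⟩ := exists_fresh M B
      refine ⟨m, hm, hm', fun b _ _ => ?_⟩
      exact containsCopy_mono (by simp) h
  | d + 1, M, B, h => by
      obtain ⟨m, hm, hm', h⟩ := h
      exact ⟨m, hm, hm', fun b hb hb' => MW_succ d _ _ (h b hb hb')⟩

theorem MW_mono {d e : ℕ} (h : d ≤ e) {M B : Finset Cell} (hw : MW d M B) : MW e M B := by
  induction h with
  | refl => exact hw
  | step _ ih => exact MW_succ _ _ _ ih

/-- The cell coded by a bit position. -/
def cell (i : ℕ) : Cell := (((i % 21 : ℕ) : ℤ), ((i / 21 : ℕ) : ℤ))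

theorem cell_inj {i j : ℕ} (h : cell i = cell j) : i = j := by
  simp only [cell, Prod.mk.injEq, Nat.cast_inj] at h
  omega

/-- A template: owning the cells of `A` while Breaker has nothing in `R` wins in `d` claims. -/
def Win (A R d : ℕ) : Prop :=
  ∀ M B : Finset Cell, (∀ i, A.testBit i = true → cell i ∈ M) →
    (∀ i, R.testBit i = true → cell i ∉ B) → MW d M B

def Inv (UA UR I D : ℕ) : Prop :=
  ∀ (M B : Finset Cell) (b : Cell), (∀ i, UA.testBit i = true → cell i ∈ M) →
    (∀ i, UR.testBit i = true → cell i ∉ B) → (∀ i, I.testBit i = true → cell i ≠ b) →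
    MW D M (insert b B)

theorem Inv.base {A R d : ℕ} (h : Win A R d) : Inv A R R d := by
  intro M B b hA hR hI
  refine h M _ hA fun i hi => ?_
  simp only [Finset.mem_insert, not_or]
  exact ⟨hI i hi, hR i hi⟩

def nmax (a b : ℕ) : ℕ := cond (Nat.ble a b) b a

theorem le_nmax_left (a b : ℕ) : a ≤ nmax a b := by
  unfold nmax
  cases h : Nat.ble a b
  · simp
  · simpa using Nat.le_of_ble_eq_true h

theorem le_nmax_right (a b : ℕ) : b ≤ nmax a b := by
  unfold nmax
  cases h : Nat.ble a b
  · have : ¬ a ≤ b := fun h' => by simp [Nat.ble_eq_true_of_le h'] at h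
    simp; omega
  · simp

theorem Inv.step {UA UR I D A R d : ℕ} (h : Inv UA UR I D) (hw : Win A R d) :
    Inv (Nat.lor UA A) (Nat.lor UR R) (Nat.land I R) (nmax D d) := by
  intro M B b hA hR hI
  have hor : ∀ x y i : ℕ, (Nat.lor x y).testBit i = (x.testBit i || y.testBit i) :=
    fun x y i => Nat.testBit_or x y i
  have hand : ∀ x y i : ℕ, (Nat.land x y).testBit i = (x.testBit i && y.testBit i) :=
    fun x y i => Nat.testBit_and x y i
  by_cases hb : ∀ i, I.testBit i = true → cell i ≠ b
  · refine MW_mono (le_nmax_left _ _) (h M B b (fun i hi => hA i ?_) (fun i hi => hR i ?_) hb)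
    · simp [hi]
    · simp [hi]
  · push Not at hb
    obtain ⟨i0, hi0, hc⟩ := hb
    refine MW_mono (le_nmax_right _ _) (hw M _ (fun i hi => hA i ?_) (fun i hi => ?_))
    · simp [hi]
    · simp only [Finset.mem_insert, not_or]
      refine ⟨fun hcb => ?_, hR i (by simp [hi])⟩
      have : i = i0 := cell_inj (hcb.trans hc.symm)
      subst this
      exact hI i (by simp [hi, hi0]) hcb

theorem Inv.close {UA UR I D : ℕ} (h : Inv UA UR I D) (m : ℕ) :
    Win (Nat.xor (Nat.lor (Nat.lor UA I) (Nat.shiftLeft 1 m)) (Nat.shiftLeft 1 m))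
      (Nat.lor UR (Nat.shiftLeft 1 m)) (Nat.succ D) := by
  intro M B hA hR
  have hor : ∀ x y i : ℕ, (Nat.lor x y).testBit i = (x.testBit i || y.testBit i) :=
    fun x y i => Nat.testBit_or x y i
  have hxor : ∀ x y i : ℕ, (Nat.xor x y).testBit i = (x.testBit i ^^ y.testBit i) :=
    fun x y i => Nat.testBit_xor x y i
  have hbit : ∀ i : ℕ, (Nat.shiftLeft 1 m).testBit i = decide (m = i) := by
    intro i
    have : Nat.shiftLeft 1 m = 2 ^ m := by
      show 1 <<< m = _
      rw [Nat.shiftLeft_eq, one_mul]
    rw [this, Nat.testBit_two_pow]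
  have key : ∀ m' : Cell, cell m ∈ insert m' M → ∀ b, b ∉ insert m' M → b ∉ B →
      MW D (insert m' M) (insert b B) := by
    intro m' hm' b hb _
    have hin : ∀ i, (UA.testBit i || I.testBit i) = true → cell i ∈ insert m' M := by
      intro i hi
      by_cases him : m = i
      · subst him; exact hm'
      · refine Finset.mem_insert_of_mem (hA i ?_)
        simp only [hxor, hor, hbit, hi, him]
        simp
    refine h _ B b (fun i hi => hin i (by simp [hi])) (fun i hi => hR i (by simp [hi]))
      (fun i hi hc => hb (hc ▸ hin i (by simp [hi])))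
  by_cases hm : cell m ∈ M
  · obtain ⟨m', h1, h2⟩ := exists_fresh M B
    exact ⟨m', h1, h2, key m' (Finset.mem_insert_of_mem hm)⟩
  · exact ⟨cell m, hm, hR m (by simp), key _ (Finset.mem_insert_self _ _)⟩

/-- offsets (x, y) of the eight orientations, normalised to nonnegative coordinates. -/
def offs : ℕ → List (ℕ × ℕ)
  | 0 => [(0,0),(1,0),(2,0),(3,0),(3,1),(4,1)]
  | 1 => [(4,0),(3,0),(2,0),(1,0),(1,1),(0,1)]
  | 2 => [(0,1),(1,1),(2,1),(3,1),(3,0),(4,0)]
  | 3 => [(4,1),(3,1),(2,1),(1,1),(1,0),(0,0)]
  | 4 => [(0,0),(0,1),(0,2),(0,3),(1,3),(1,4)]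
  | 5 => [(1,0),(1,1),(1,2),(1,3),(0,3),(0,4)]
  | 6 => [(0,4),(0,3),(0,2),(0,1),(1,1),(1,0)]
  | _ => [(1,4),(1,3),(1,2),(1,1),(0,1),(0,0)]

theorem offs_spec : ∀ o < 8, ∃ a ∈ ([0, 1, 4] : List ℤ), ∃ b ∈ ([0, 1, 4] : List ℤ),
    ∃ e1 ∈ ([1, -1] : List ℤ), ∃ e2 ∈ ([1, -1] : List ℤ),
      (∀ p ∈ snaky, ∃ q ∈ offs o, a + e1 * p.1 = (q.1 : ℤ) ∧ b + e2 * p.2 = (q.2 : ℤ)) ∨
      (∀ p ∈ snaky, ∃ q ∈ offs o, a + e1 * p.2 = (q.1 : ℤ) ∧ b + e2 * p.1 = (q.2 : ℤ)) := by
  decide +kernel

theorem copy_of_offs (o : ℕ) (ho : o < 8) (x y : ℤ) (X : Set Cell)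
    (h : ∀ p ∈ offs o, (x + p.1, y + p.2) ∈ X) : ContainsCopy X := by
  obtain ⟨a, -, b, -, e1, h1, e2, h2, h3⟩ := offs_spec o ho
  refine ⟨(x + a, y + b), e1, e2, by simpa using h1, by simpa using h2, ?_⟩
  rcases h3 with h3 | h3
  · refine Or.inl fun p hp => ?_
    obtain ⟨q, hq, e, e'⟩ := h3 p hp
    have := h q hq
    rw [← e, ← e'] at this
    simpa [add_assoc] using this
  · refine Or.inr fun p hp => ?_
    obtain ⟨q, hq, e, e'⟩ := h3 p hp
    have := h q hq
    rw [← e, ← e'] at this
    simpa [add_assoc] using this

/-- table of base masks: entry `8 * o + j` (105 bits each, stored with stride 128). -/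
def tabA : ℕ := 0x20000100000800006000000000000000200001000008000060000000000000002000010000080000600000000000000020000100000800004000010000000000200001000008000020000100000000002000010000000000600001000000000020000000000800006000010000000000000001000008000060000100000000001000008000040000600000000000000010000080000400006000000000000000100000800004000060000000000000001000008000040000200002000000000010000080000400004000020000000000100000800000000060000200000000001000000000040000600002000000000000000080000400006000020000000000000001800008000040000200000000000000018000080000400002000000000000000180000800004000020000000000100001000008000040000200000000001000008000080000400002000000000010000180000000004000020000000000100001800008000000000200000000001000018000080000400000000000000000000180000400002000010000000000000001800004000020000100000000000000018000040000200001000000000020000080000400002000010000000000200001000004000020000100000000002000018000000000200001000000000020000180000400000000010000000000200001800004000020000000000000000000000000000003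c0000200000000000000000000000003c0000200000000000000000000000003c0000200000000000000000000000003c00001000000000000000000000000038000030000000000000000000000000340000300000000000000000000000002c0000300000000000000000000000001c0000300000000000000000000000001e0000800000000000000000000000001e0000800000000000000000000000001e0000800000000000000000000000001e0001000000000000000000000000000e000180000000000000000000000000160001800000000000000000000000001a0001800000000000000000000000001c000180000000000000000000000000040001e0000000000000000000000000040001e0000000000000000000000000040001e0000000000000000000000000020001e0000000000000000000000000060001c0000000000000000000000000060001a000000000000000000000000006000160000000000000000000000000060000e0000000000000000000000000100000f0000000000000000000000000100000f0000000000000000000000000100000f0000000000000000000000000200000f000000000000000000000000030000070000000000000000000000000300000b0000000000000000000000000300000d0000000000000000000000000300000e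

def tabM : ℕ := 0x15162b405501010116152a3f545454543f402b1601555555403f2a15000000000116171819040404031817161515151516010203041919191803020100

/-- mask of the five owned cells of the leaf with code `c = 8 * o + j`. -/
def baseA (c : ℕ) : ℕ := Nat.mod (Nat.shiftRight tabA (Nat.mul 128 c)) 0x100000000000000000000000000000000

/-- position of the missing cell of the leaf with code `c`. -/
def baseM (c : ℕ) : ℕ := Nat.mod (Nat.shiftRight tabM (Nat.mul 8 c)) 256

theorem base_spec : ∀ c < 64, ∀ q ∈ offs (c / 8), q.1 ≤ 4 ∧
    ((baseA c).testBit (q.2 * 21 + q.1) = true ∨ q.2 * 21 + q.1 = baseM c) := by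
  decide +kernel

theorem cell_add (s : ℕ) (hs : s % 21 ≤ 16) (q : ℕ × ℕ) (hq : q.1 ≤ 4) :
    cell (s + (q.2 * 21 + q.1)) = ((cell s).1 + q.1, (cell s).2 + q.2) := by
  simp only [cell, Prod.mk.injEq]
  constructor
  · have : (s + (q.2 * 21 + q.1)) % 21 = s % 21 + q.1 := by omega
    rw [this]; push_cast; ring
  · have : (s + (q.2 * 21 + q.1)) / 21 = s / 21 + q.2 := by omega
    rw [this]; push_cast; ring

theorem win_leaf (c s : ℕ) (hc : c < 64) (hs : s % 21 ≤ 16) :
    Win (Nat.shiftLeft (baseA c) s) (Nat.shiftLeft 1 (Nat.add s (baseM c))) 1 := by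
  intro M B hA hR
  have key : ∀ m' : Cell, cell (s + baseM c) ∈ insert m' M →
      ContainsCopy (↑(insert m' M) : Set Cell) := by
    intro m' hm'
    refine copy_of_offs (c / 8) (by omega) (cell s).1 (cell s).2 _ fun q hq => ?_
    obtain ⟨h1, h2⟩ := base_spec c hc q hq
    rw [← cell_add s hs q h1]
    rcases h2 with h2 | h2
    · refine Finset.mem_coe.2 (Finset.mem_insert_of_mem (hA _ ?_))
      show (baseA c <<< s).testBit _ = true
      rw [Nat.testBit_shiftLeft]
      simp [h2]
    · rw [h2]; exact Finset.mem_coe.2 hm'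
  by_cases hm : cell (s + baseM c) ∈ M
  · obtain ⟨m', h1, h2⟩ := exists_fresh M B
    exact ⟨m', h1, h2, fun b _ _ => key m' (Finset.mem_insert_of_mem hm)⟩
  · refine ⟨cell (s + baseM c), hm, hR _ ?_, fun b _ _ => key _ (Finset.mem_insert_self _ _)⟩
    show (1 <<< (s + baseM c)).testBit _ = true
    rw [Nat.shiftLeft_eq, one_mul, Nat.testBit_two_pow]
    simp

/-- stacks of templates -/
inductive Stk : Type
  | nil : Stk
  | cons : ℕ → ℕ → ℕ → Stk → Stk

def Stk.Good : Stk → Prop
  | .nil => True
  | .cons A R d t => Win A R d ∧ t.Good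

/-- evaluate a number before passing it on -/
noncomputable def force {α : Type} (n : ℕ) (k : ℕ → α) : α :=
  Nat.rec (k 0) (fun m _ => k (Nat.succ m)) n

theorem force_eq {α : Type} (n : ℕ) (k : ℕ → α) : force n k = k n := by
  cases n <;> rfl

noncomputable def closeNode (m UA UR I D : ℕ) (st : Stk) (k : Stk → Stk) : Stk :=
  force (Nat.shiftLeft 1 m) fun bm =>
  force (Nat.xor (Nat.lor (Nat.lor UA I) bm) bm) fun A =>
  force (Nat.lor UR bm) fun R =>
  force D fun D' => k (Stk.cons A R (Nat.succ D') st)

noncomputable def popLoop (m : ℕ) (k : Stk → Stk) (n : ℕ) : ℕ → ℕ → ℕ → ℕ → Stk → Stk :=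
  Nat.rec (motive := fun _ => ℕ → ℕ → ℕ → ℕ → Stk → Stk)
    (fun UA UR I D st => closeNode m UA UR I D st k)
    (fun _ ih UA UR I D st =>
      Stk.rec (motive := fun _ => Stk) Stk.nil
        (fun A R d t _ => ih (Nat.lor UA A) (Nat.lor UR R) (Nat.land I R) (nmax D d) t) st)
    n

/-- one instruction: below `2 ^ 15` a leaf (position, shape), otherwise a node (cell, arity - 1). -/
noncomputable def step (tok : ℕ) (st : Stk) (k : Stk → Stk) : Stk :=
  force (Nat.mod tok 512) fun s =>
  force (Nat.div tok 512) fun c =>
  Bool.rec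
    (Stk.rec (motive := fun _ => Stk) Stk.nil
      (fun A R d t _ => popLoop s k (Nat.sub c 64) A R R d t) st)
    (Bool.rec Stk.nil
      (force (Nat.shiftLeft (baseA c) s) fun A =>
       force (Nat.shiftLeft 1 (Nat.add s (baseM c))) fun R => k (Stk.cons A R 1 st))
      (Nat.ble (Nat.mod s 21) 16))
    (Nat.ble c 63)

noncomputable def run (n : ℕ) : ℕ → Stk → Stk :=
  Nat.rec (motive := fun _ => ℕ → Stk → Stk) (fun _ st => st)
    (fun _ ih code st =>
      force (Nat.mod code 65536) fun tok =>
      force (Nat.shiftRight code 16) fun code' => step tok st (ih code'))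
    n

theorem closeNode_good {m UA UR I D : ℕ} {st : Stk} {k : Stk → Stk}
    (hk : ∀ s : Stk, s.Good → (k s).Good) (h : Inv UA UR I D) (hst : st.Good) :
    (closeNode m UA UR I D st k).Good := by
  simp only [closeNode, force_eq]
  exact hk _ ⟨h.close m, hst⟩

theorem popLoop_good (m : ℕ) {k : Stk → Stk} (hk : ∀ s : Stk, s.Good → (k s).Good) (n : ℕ) :
    ∀ (UA UR I D : ℕ) (st : Stk), Inv UA UR I D → st.Good → (popLoop m k n UA UR I D st).Good := by
  induction n with
  | zero => intro UA UR I D st h hst; exact closeNode_good hk h hst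
  | succ n ih =>
    intro UA UR I D st h hst
    cases st with
    | nil => exact trivial
    | cons A R d t => exact ih _ _ _ _ t (h.step hst.1) hst.2

theorem step_good (tok : ℕ) {st : Stk} {k : Stk → Stk} (hk : ∀ s : Stk, s.Good → (k s).Good)
    (hst : st.Good) : (step tok st k).Good := by
  simp only [step, force_eq]
  cases h1 : Nat.ble (Nat.div tok 512) 63
  · cases st with
    | nil => exact trivial
    | cons A R d t => exact popLoop_good _ hk _ _ _ _ _ t (Inv.base hst.1) hst.2
  · cases h2 : Nat.ble (Nat.mod (Nat.mod tok 512) 21) 16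
    · exact trivial
    · refine hk _ ⟨win_leaf _ _ ?_ (Nat.le_of_ble_eq_true h2), hst⟩
      exact Nat.lt_succ_of_le (Nat.le_of_ble_eq_true h1)

theorem run_good (n : ℕ) : ∀ (code : ℕ) (st : Stk), st.Good → (run n code st).Good := by
  induction n with
  | zero => intro code st h; exact h
  | succ n ih =>
    intro code st h
    have e : run (n + 1) code st = force (Nat.mod code 65536) fun tok =>
        force (Nat.shiftRight code 16) fun code' => step tok st (run n code') := rfl
    rw [e]
    simp only [force_eq]
    exact step_good _ (ih _) h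

noncomputable def Stk.beq (s : Stk) : Stk → Bool :=
  Stk.rec (motive := fun _ => Stk → Bool)
    (fun _ => true)
    (fun A R d _ ih u => Stk.rec (motive := fun _ => Bool) false
      (fun A' R' d' t' _ => Nat.beq A A' && (Nat.beq R R' && (Nat.beq d d' && ih t'))) u)
    s

theorem good_of_beq : ∀ (s u : Stk), s.beq u = true → u.Good → s.Good
  | .nil, _, _, _ => trivial
  | .cons A R d t, .nil, h, _ => by simp [Stk.beq] at h
  | .cons A R d t, .cons A' R' d' t', h, hu => by
      have h' : (Nat.beq A A' && (Nat.beq R R' && (Nat.beq d d' && t.beq t'))) = true := h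
      simp only [Bool.and_eq_true, Nat.beq_eq] at h'
      obtain ⟨rfl, rfl, rfl, h4⟩ := h'
      exact ⟨hu.1, good_of_beq t t' h4 hu.2⟩

theorem good_of_run {s s' : Stk} (n code : ℕ) (hs : s.Good)
    (h : s'.beq (run n code s) = true) : s'.Good :=
  good_of_beq _ _ h (run_good n code s hs)

end Crest.Agent.R35
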