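import Crest.Agent.R35.C0
import Crest.Agent.R35.C1
import Crest.Agent.R35.C2
import Crest.Agent.R35.C3
import Crest.Agent.R35.C4
import Crest.Agent.R35.C5
import Crest.Agent.R35.C6
import Crest.Agent.R35.C7

set_option autoImplicit false
set_option maxRecDepth 100000

namespace Crest.Agent.R35

theorem roots : Stk.Good (Stk.cons 0x10000000000000000000000000000000000000000000000000000000 0xa0000fc001ff000ffc007fe000ff001ef801ffc007fe007fe0003f000160000000000000000000000000000 14 (Stk.cons 0x10000000000000000000000000000000000000000000000000000000 0x204001fe003ff000ffe007ff003ff8002fc00fff007ff003ff801ff8007f8003fc0000000000000000000000 16 (Stk.cons 0x10000000000000000000000000000000000000000000000000000000 0x280001e0003fc000fc007ff001ef007ffc01ffc01fff001fe0001e0000000000000000000000000000 14 (Stk.cons 0x10000000000000000000000000000000000000000000000000000000 0x280001c0003e000ff8007fe0077f001ef800ffc007fe003ff001ff0007f8000a00000000000000000000000 14 (Stk.cons 0x10000000000000000000000000000000000000000000000000000000 0x15c000ff001ffe007ff007bf803efc03ffe00fff00fff807ff801ff8006f80015000000000000000000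 14 (Stk.cons 0x10000000000000000000000000000000000000000000000000000000 0xdc0007f800ffe007ff00fffe1ffff1ffff87fffc3fffc1ffff0fcff03fffc7fff83fffe0ffff07ffe03ffe00fff001ff0007c0003c00 19 Stk.nil)))))) :=
  (chunk75 (chunk74 (chunk73 (chunk72 (chunk71 (chunk70 (chunk69 (chunk68 (chunk67 (chunk66 (chunk65 (chunk64 (chunk63 (chunk62 (chunk61 (chunk60 (chunk59 (chunk58 (chunk57 (chunk56 (chunk55 (chunk54 (chunk53 (chunk52 (chunk51 (chunk50 (chunk49 (chunk48 (chunk47 (chunk46 (chunk45 (chunk44 (chunk43 (chunk42 (chunk41 (chunk40 (chunk39 (chunk38 (chunk37 (chunk36 (chunk35 (chunk34 (chunk33 (chunk32 (chunk31 (chunk30 (chunk29 (chunk28 (chunk27 (chunk26 (chunk25 (chunk24 (chunk23 (chunk22 (chunk21 (chunk20 (chunk19 (chunk18 (chunk17 (chunk16 (chunk15 (chunk14 (chunk13 (chunk12 (chunk11 (chunk10 (chunk9 (chunk8 (chunk7 (chunk6 (chunk5 (chunk4 (chunk3 (chunk2 (chunk1 (chunk0 trivial))))))))))))))))))))))))))))))))))))))))))))))))))))))))))))))))))))))))))))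

end Crest.Agent.R35
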